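import Mathlib

namespace Vale.Agent.Lib.P042

open Polynomial

/-- `A` has no difference equal to a nonzero value `h(n)` with `n ≥ 1`. -/
def Avoids (h : ℤ[X]) (A : Finset ℕ) : Prop :=
  ∀ a ∈ A, ∀ b ∈ A, ∀ n : ℕ, 1 ≤ n → (a : ℤ) - (b : ℤ) = h.eval (n : ℤ) → (a : ℤ) - (b : ℤ) = 0

/-- `r_h(N)`: the largest size of a subset of `[N] = {1,…,N}` avoiding `h`. -/
noncomputable def r (h : ℤ[X]) (N : ℕ) : ℕ :=
  sSup {s : ℕ | ∃ A : Finset ℕ, A ⊆ Finset.Icc 1 N ∧ Avoids h A ∧ A.card = s}

/-- `h` has a root modulo every `q ≥ 1`. -/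
def Intersective (h : ℤ[X]) : Prop :=
  ∀ q : ℕ, 1 ≤ q → ∃ t : ℤ, (q : ℤ) ∣ h.eval t

lemma card_le_r {h : ℤ[X]} {N : ℕ} {A : Finset ℕ} (hA : A ⊆ Finset.Icc 1 N) (hav : Avoids h A) :
    A.card ≤ r h N := by
  apply le_csSup
  · refine ⟨N, ?_⟩
    rintro s ⟨B, hB, -, rfl⟩
    simpa using Finset.card_le_card hB
  · exact ⟨A, hA, hav, rfl⟩

/-- Greedy lemma: if all conflicts inside `B` have their (positive) difference in `D`, then `B`
contains an avoiding set of size at least `|B| / (2|D|+1)`. -/
lemma exists_avoiding_subset (h : ℤ[X]) (B D : Finset ℕ)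
    (hD : ∀ a ∈ B, ∀ b ∈ B, ∀ n : ℕ, 1 ≤ n → (a : ℤ) - (b : ℤ) = h.eval (n : ℤ) →
      (a : ℤ) - (b : ℤ) ≠ 0 → ∃ d ∈ D, a = b + d ∨ b = a + d) :
    ∃ A ⊆ B, Avoids h A ∧ B.card ≤ A.card * (2 * D.card + 1) := by
  classical
  -- a maximal avoiding subset
  have hne : (B.powerset.filter (fun A => Avoids h A)).Nonempty := by
    refine ⟨∅, ?_⟩
    rw [Finset.mem_filter, Finset.mem_powerset]
    refine ⟨Finset.empty_subset _, ?_⟩
    intro a ha
    exact absurd ha (Finset.notMem_empty a)
  obtain ⟨A, hA, hmax⟩ := Finset.exists_max_image _ Finset.card hne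
  rw [Finset.mem_filter, Finset.mem_powerset] at hA
  obtain ⟨hAB, hAav⟩ := hA
  refine ⟨A, hAB, hAav, ?_⟩
  have hcover : B ⊆ A ∪ (Finset.image₂ (fun a d => a + d) A D ∪ Finset.image₂ (fun a d => a - d) A D) := by
    intro x hx
    by_contra hxn
    simp only [Finset.mem_union, Finset.mem_image₂, not_or, not_exists, not_and] at hxn
    obtain ⟨hxA, hx1, hx2⟩ := hxn
    -- insert x A avoids
    have hins : Avoids h (insert x A) := by
      intro a ha b hb n hn hab
      by_contra hne0
      have haB : a ∈ B := by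
        rcases Finset.mem_insert.1 ha with rfl | ha
        · exact hx
        · exact hAB ha
      have hbB : b ∈ B := by
        rcases Finset.mem_insert.1 hb with rfl | hb
        · exact hx
        · exact hAB hb
      obtain ⟨d, hd, hcase⟩ := hD a haB b hbB n hn hab hne0
      rcases Finset.mem_insert.1 ha with rfl | ha'
      · rcases Finset.mem_insert.1 hb with rfl | hb'
        · exact hne0 (by ring)
        · rcases hcase with h1 | h1
          · exact hx1 b hb' d hd h1.symm
          · exact hx2 b hb' d hd (by omega)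
      · rcases Finset.mem_insert.1 hb with rfl | hb'
        · rcases hcase with h1 | h1
          · exact hx2 a ha' d hd (by omega)
          · exact hx1 a ha' d hd h1.symm
        · exact hne0 (hAav a ha' b hb' n hn hab)
    have hmem : insert x A ∈ B.powerset.filter (fun A => Avoids h A) := by
      rw [Finset.mem_filter, Finset.mem_powerset]
      exact ⟨Finset.insert_subset hx hAB, hins⟩
    have := hmax _ hmem
    rw [Finset.card_insert_of_notMem hxA] at this
    omega
  calc B.card ≤ (A ∪ (Finset.image₂ (fun a d => a + d) A D ∪ Finset.image₂ (fun a d => a - d) A D)).card :=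
        Finset.card_le_card hcover
    _ ≤ A.card + ((Finset.image₂ (fun a d => a + d) A D).card + (Finset.image₂ (fun a d => a - d) A D).card) :=
        (Finset.card_union_le _ _).trans (Nat.add_le_add_left (Finset.card_union_le _ _) _)
    _ ≤ A.card + (A.card * D.card + A.card * D.card) :=
        Nat.add_le_add_left (Nat.add_le_add (Finset.card_image₂_le _ _ _) (Finset.card_image₂_le _ _ _)) _
    _ = A.card * (2 * D.card + 1) := by ring

end Vale.Agent.Lib.P042
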