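import Vale.Agent.Lib.P042.Growth

namespace Vale.Agent.Lib.P042

open Polynomial

/-- numbers below `Q^j` all of whose base-`Q` digits lie in `T`. -/
def digitSet (Q : ℕ) (T : Finset ℕ) : ℕ → Finset ℕ
  | 0 => {0}
  | (j + 1) => Finset.image₂ (fun t a => t + Q * a) T (digitSet Q T j)

lemma digitSet_lt {Q : ℕ} {T : Finset ℕ} (hT : ∀ t ∈ T, t < Q) :
    ∀ j, ∀ a ∈ digitSet Q T j, a < Q ^ j := by
  intro j
  induction j with
  | zero => intro a ha; simp [digitSet] at ha; simp [ha]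
  | succ j ih =>
    intro a ha
    simp only [digitSet, Finset.mem_image₂] at ha
    obtain ⟨t, ht, b, hb, rfl⟩ := ha
    have h1 := hT t ht
    have h2 := ih b hb
    calc t + Q * b < Q + Q * b := by omega
      _ = Q * (b + 1) := by ring
      _ ≤ Q * Q ^ j := Nat.mul_le_mul_left _ h2
      _ = Q ^ (j + 1) := by ring

lemma digitSet_card {Q : ℕ} {T : Finset ℕ} (hT : ∀ t ∈ T, t < Q) :
    ∀ j, (digitSet Q T j).card = T.card ^ j := by
  intro j
  induction j with
  | zero => simp [digitSet]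
  | succ j ih =>
    simp only [digitSet]
    rw [Finset.card_image₂_iff.2, ih]
    · ring
    · rintro ⟨t, a⟩ h1 ⟨t', a'⟩ h2 heq
      have h1 : t ∈ T ∧ a ∈ digitSet Q T j := by simpa using h1
      have h2 : t' ∈ T ∧ a' ∈ digitSet Q T j := by simpa using h2
      have heq : t + Q * a = t' + Q * a' := heq
      have ht := hT t h1.1
      have ht' := hT t' h2.1
      have hQ : 0 < Q := by omega
      have e1 : (t + Q * a) % Q = t := by
        rw [Nat.add_mul_mod_self_left, Nat.mod_eq_of_lt ht]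
      have e2 : (t' + Q * a') % Q = t' := by
        rw [Nat.add_mul_mod_self_left, Nat.mod_eq_of_lt ht']
      have htt : t = t' := by rw [← e1, ← e2, heq]
      subst htt
      have : Q * a = Q * a' := by omega
      have haa : a = a' := Nat.eq_of_mul_eq_mul_left hQ this
      rw [haa]

/-- Key lemma: if two integers whose lowest `j` base-`q^s` digits lie in `T` differ by an `s`-th
power `z^s`, then `q^j ∣ z`. -/
lemma pow_dvd_of_digits {s q : ℕ} (hs : s ≠ 0) {T : Finset ℕ}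
    (hT : ∀ t ∈ T, ∀ t' ∈ T, ∀ z : ℤ, ((q : ℤ) ^ s) ∣ ((t : ℤ) - (t' : ℤ) - z ^ s) → t = t') :
    ∀ j, ∀ a ∈ digitSet (q ^ s) T j, ∀ a' ∈ digitSet (q ^ s) T j, ∀ u u' z : ℤ,
      ((a : ℤ) + ((q : ℤ) ^ s) ^ j * u) - ((a' : ℤ) + ((q : ℤ) ^ s) ^ j * u') = z ^ s →
      ((q : ℤ) ^ j) ∣ z := by
  intro j
  induction j with
  | zero => intro a _ a' _ u u' z _; simp
  | succ j ih =>
    intro a ha a' ha' u u' z hz
    simp only [digitSet, Finset.mem_image₂] at ha ha'
    obtain ⟨t, ht, b, hb, rfl⟩ := ha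
    obtain ⟨t', ht', b', hb', rfl⟩ := ha'
    push_cast at hz
    have htt : t = t' := by
      apply hT t ht t' ht' z
      refine ⟨-((b : ℤ) + ((q : ℤ) ^ s) ^ j * u - ((b' : ℤ) + ((q : ℤ) ^ s) ^ j * u')), ?_⟩
      rw [← hz]
      ring
    subst htt
    have hz2 : ((q : ℤ) ^ s) * (((b : ℤ) + ((q : ℤ) ^ s) ^ j * u) - ((b' : ℤ) + ((q : ℤ) ^ s) ^ j * u'))
        = z ^ s := by
      rw [← hz]; ring
    have hqz : (q : ℤ) ∣ z := by
      have : (q : ℤ) ^ s ∣ z ^ s := ⟨_, hz2.symm⟩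
      exact (Int.pow_dvd_pow_iff hs).1 this
    obtain ⟨w, rfl⟩ := hqz
    by_cases hq0 : (q : ℤ) = 0
    · rw [hq0]; simp
    have hw : ((b : ℤ) + ((q : ℤ) ^ s) ^ j * u) - ((b' : ℤ) + ((q : ℤ) ^ s) ^ j * u') = w ^ s := by
      have hne : ((q : ℤ) ^ s) ≠ 0 := pow_ne_zero _ hq0
      apply mul_left_cancel₀ hne
      rw [hz2]; ring
    have := ih b hb b' hb' u u' w hw
    rw [pow_succ, mul_comm]
    exact mul_dvd_mul_left _ this

end Vale.Agent.Lib.P042
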