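import Vale.Agent.Lib.P042.Basic

namespace Vale.Agent.Lib.P042

open Polynomial Filter

lemma eventually_pow_le (h : ℤ[X]) (hlead : 0 < h.leadingCoeff) :
    ∃ n0 : ℕ, ∀ n : ℕ, n0 ≤ n → (n : ℤ) ^ h.natDegree ≤ 2 * h.eval (n : ℤ) := by
  set P : ℝ[X] := h.map (Int.castRingHom ℝ) with hP
  have hinj : Function.Injective (Int.castRingHom ℝ) := Int.cast_injective
  have hdeg : P.natDegree = h.natDegree := Polynomial.natDegree_map_eq_of_injective hinj h
  have hlc : P.leadingCoeff = (h.leadingCoeff : ℝ) := by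
    rw [hP, Polynomial.leadingCoeff_map_of_injective hinj]; rfl
  have hequiv := Polynomial.isEquivalent_atTop_lead P
  have h1 := hequiv.isLittleO.def (c := 1 / 2) (by norm_num)
  have h2 := (tendsto_natCast_atTop_atTop (R := ℝ)).eventually h1
  obtain ⟨n0, hn0⟩ := Filter.eventually_atTop.1 h2
  refine ⟨n0, fun n hn => ?_⟩
  have h3 := hn0 n hn
  simp only [Pi.sub_apply] at h3
  rw [hdeg, hlc] at h3
  have ha : (1 : ℝ) ≤ (h.leadingCoeff : ℝ) := by exact_mod_cast hlead
  have hx : (0 : ℝ) ≤ (n : ℝ) ^ h.natDegree := by positivity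
  have hev : P.eval (n : ℝ) = ((h.eval (n : ℤ) : ℤ) : ℝ) := by
    have := Polynomial.eval_intCast_map (Int.castRingHom ℝ) h (n : ℤ)
    simpa [hP] using this
  rw [hev, Real.norm_eq_abs, Real.norm_eq_abs,
    abs_of_nonneg (mul_nonneg (by linarith) hx)] at h3
  have h4 := (abs_le.1 h3).1
  have h5 : (n : ℝ) ^ h.natDegree ≤ 2 * ((h.eval (n : ℤ) : ℤ) : ℝ) := by nlinarith
  exact_mod_cast h5

end Vale.Agent.Lib.P042
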