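import Vale.Agent.Lib.P042.Roots

namespace Vale.Agent.Lib.P042

open Polynomial

/-- combinatorial core: for every `j` with `(q^j)^(s e) ≤ N` -/
lemma hybrid_comb {s q : ℕ} (hs : 1 ≤ s) (hq : 2 ≤ q) {T : Finset ℕ}
    (hTlt : ∀ t ∈ T, t < q ^ s)
    (hT : ∀ t ∈ T, ∀ t' ∈ T, ∀ z : ℤ, ((q : ℤ) ^ s) ∣ ((t : ℤ) - (t' : ℤ) - z ^ s) → t = t')
    {g : ℤ[X]} (hsep : SeparableMod g q) {n0 : ℕ}
    (hn0 : ∀ n : ℕ, n0 ≤ n → (n : ℤ) ^ g.natDegree ≤ 2 * g.eval (n : ℤ))
    {N j X : ℕ}
    (hX : ∀ n : ℕ, (n : ℤ) ^ (g.natDegree * s) ≤ 2 ^ s * (N : ℤ) → n ≤ X) :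
    T.card ^ j * (N / (q ^ s) ^ j) ≤ r (g ^ s) N * (2 * (n0 + q * (X / q ^ j + 1)) + 1) := by
  classical
  set Q := q ^ s with hQ
  have hQpos : 0 < Q := pow_pos (by omega) s
  have hQj : 0 < Q ^ j := pow_pos hQpos j
  set U := N / Q ^ j with hU
  set S := digitSet Q T j with hS
  set B : Finset ℕ := Finset.image₂ (fun a u => a + Q ^ j * u + 1) S (Finset.range U) with hB
  have hSlt : ∀ a ∈ S, a < Q ^ j := digitSet_lt hTlt j
  have hBcard : B.card = T.card ^ j * U := by
    rw [hB, Finset.card_image₂_iff.2, hS, digitSet_card hTlt, Finset.card_range]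
    rintro ⟨a, u⟩ h1 ⟨a', u'⟩ h2 heq
    have h1 : a ∈ S ∧ u ∈ Finset.range U := by simpa using h1
    have h2 : a' ∈ S ∧ u' ∈ Finset.range U := by simpa using h2
    have heq : a + Q ^ j * u + 1 = a' + Q ^ j * u' + 1 := heq
    have ha := hSlt a h1.1
    have ha' := hSlt a' h2.1
    have e1 : (a + Q ^ j * u) % Q ^ j = a := by
      rw [Nat.add_mul_mod_self_left, Nat.mod_eq_of_lt ha]
    have e2 : (a' + Q ^ j * u') % Q ^ j = a' := by
      rw [Nat.add_mul_mod_self_left, Nat.mod_eq_of_lt ha']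
    have heq' : a + Q ^ j * u = a' + Q ^ j * u' := by omega
    have haa : a = a' := by rw [← e1, ← e2, heq']
    subst haa
    have : Q ^ j * u = Q ^ j * u' := by omega
    have huu : u = u' := Nat.eq_of_mul_eq_mul_left hQj this
    rw [huu]
  have hBsub : B ⊆ Finset.Icc 1 N := by
    intro x hx
    rw [hB, Finset.mem_image₂] at hx
    obtain ⟨a, ha, u, hu, rfl⟩ := hx
    have h1 := hSlt a ha
    have h2 : u + 1 ≤ U := Finset.mem_range.1 hu
    have h3 : Q ^ j * U ≤ N := Nat.mul_div_le N (Q ^ j)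
    have h4 : Q ^ j * (u + 1) ≤ Q ^ j * U := Nat.mul_le_mul_left _ h2
    rw [Finset.mem_Icc]
    constructor
    · omega
    · have : Q ^ j * (u + 1) = Q ^ j * u + Q ^ j := by ring
      omega
  set I : Finset ℕ := Finset.range n0 ∪
    (Finset.range (X + 1)).filter (fun n : ℕ => (q : ℤ) ^ j ∣ g.eval (n : ℤ)) with hI
  set D : Finset ℕ := I.image (fun n : ℕ => ((g ^ s).eval (n : ℤ)).natAbs) with hD
  have hcond : ∀ a ∈ B, ∀ b ∈ B, ∀ n : ℕ, 1 ≤ n →
      (a : ℤ) - (b : ℤ) = (g ^ s).eval (n : ℤ) → (a : ℤ) - (b : ℤ) ≠ 0 →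
      ∃ d ∈ D, a = b + d ∨ b = a + d := by
    intro a ha b hb n _ hab _
    have haN := Finset.mem_Icc.1 (hBsub ha)
    have hbN := Finset.mem_Icc.1 (hBsub hb)
    have hnI : n ∈ I := by
      by_cases hnn : n < n0
      · exact Finset.mem_union_left _ (Finset.mem_range.2 hnn)
      · apply Finset.mem_union_right
        rw [Finset.mem_filter, Finset.mem_range]
        constructor
        · -- size bound
          have h1 := hn0 n (by omega)
          have h0 : (0 : ℤ) ≤ (n : ℤ) ^ g.natDegree := by positivity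
          have h2 : ((n : ℤ) ^ g.natDegree) ^ s ≤ (2 * g.eval (n : ℤ)) ^ s :=
            pow_le_pow_left₀ h0 h1 s
          have h3 : (g.eval (n : ℤ)) ^ s ≤ (N : ℤ) := by
            have : (g ^ s).eval (n : ℤ) = (g.eval (n : ℤ)) ^ s := by simp
            rw [← this, ← hab]
            have : (a : ℤ) ≤ N := by exact_mod_cast haN.2
            have : (0 : ℤ) ≤ b := by positivity
            linarith
          have h4 : (n : ℤ) ^ (g.natDegree * s) ≤ 2 ^ s * (N : ℤ) := by
            rw [pow_mul]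
            refine h2.trans ?_
            rw [mul_pow]
            exact mul_le_mul_of_nonneg_left h3 (by positivity)
          exact Nat.lt_succ_of_le (hX n h4)
        · -- divisibility
          rw [hB, Finset.mem_image₂] at ha hb
          obtain ⟨a1, ha1, u1, _, rfl⟩ := ha
          obtain ⟨a2, ha2, u2, _, rfl⟩ := hb
          apply pow_dvd_of_digits (by omega : s ≠ 0) hT j a1 ha1 a2 ha2 (u1 : ℤ) (u2 : ℤ)
          have : (g ^ s).eval (n : ℤ) = (g.eval (n : ℤ)) ^ s := by simp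
          rw [← this, ← hab]
          have hQc : ((Q : ℕ) : ℤ) = (q : ℤ) ^ s := by rw [hQ]; push_cast; ring
          push_cast
          rw [hQc]
          ring
    refine ⟨((g ^ s).eval (n : ℤ)).natAbs, Finset.mem_image_of_mem _ hnI, ?_⟩
    omega
  obtain ⟨A, hAB, hAav, hcard⟩ := exists_avoiding_subset (g ^ s) B D hcond
  have hr : A.card ≤ r (g ^ s) N := card_le_r (hAB.trans hBsub) hAav
  have hDcard : D.card ≤ n0 + q * (X / q ^ j + 1) := by
    calc D.card ≤ I.card := Finset.card_image_le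
      _ ≤ (Finset.range n0).card + _ := Finset.card_union_le _ _
      _ ≤ n0 + q * (X / q ^ j + 1) := by
          rw [Finset.card_range]
          exact Nat.add_le_add_left (card_roots_le (by omega) hsep j X) _
  rw [← hBcard]
  calc B.card ≤ A.card * (2 * D.card + 1) := hcard
    _ ≤ r (g ^ s) N * (2 * (n0 + q * (X / q ^ j + 1)) + 1) := by
        apply Nat.mul_le_mul hr
        omega

end Vale.Agent.Lib.P042
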