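import Vale.Agent.Lib.P042.Hybrid

namespace Vale.Agent.Lib.P042

open Polynomial

theorem hybrid_core {s q : ℕ} (hs : 1 ≤ s) (hq : 2 ≤ q) {T : Finset ℕ} (hTne : T.Nonempty)
    (hTlt : ∀ t ∈ T, t < q ^ s)
    (hT : ∀ t ∈ T, ∀ t' ∈ T, ∀ z : ℤ, ((q : ℤ) ^ s) ∣ ((t : ℤ) - (t' : ℤ) - z ^ s) → t = t')
    {g : ℤ[X]} (hg : 1 ≤ g.natDegree) (hlead : 0 < g.leadingCoeff) (hsep : SeparableMod g q) :
    ∃ c : ℝ, 0 < c ∧ ∀ N : ℕ, 1 ≤ N →
      c * (N : ℝ) ^ (1 - (1 - Real.log (T.card : ℝ) / Real.log ((q : ℝ) ^ s)) / (g.natDegree : ℝ))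
        ≤ (r (g ^ s) N : ℝ) := by
  obtain ⟨n0, hn0⟩ := eventually_pow_le g hlead
  set e := g.natDegree with he
  set k := e * s with hk
  have hkpos : 0 < k := Nat.mul_pos (by omega) (by omega)
  have hkR : (0 : ℝ) < (k : ℝ) := by exact_mod_cast hkpos
  have heR : (0 : ℝ) < (e : ℝ) := by
    have : 0 < e := by omega
    exact_mod_cast this
  set γ : ℝ := Real.log (T.card : ℝ) / Real.log ((q : ℝ) ^ s) with hγ
  set C : ℕ := 2 * (n0 + 2 * q ^ 2) + 1 with hC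
  have hCpos : (0 : ℝ) < (C : ℝ) := by
    have : 0 < C := by omega
    exact_mod_cast this
  have hQ1 : (1 : ℝ) < (q : ℝ) ^ s := by
    have h1 : (1 : ℝ) < (q : ℝ) := by
      have : 1 < q := by omega
      exact_mod_cast this
    exact one_lt_pow₀ h1 (by omega)
  have hQpos : (0 : ℝ) < (q : ℝ) ^ s := by linarith
  have hlogQ : 0 < Real.log ((q : ℝ) ^ s) := Real.log_pos hQ1
  have hTcard : 1 ≤ T.card := Finset.card_pos.2 hTne
  have hTcardR : (1 : ℝ) ≤ (T.card : ℝ) := by exact_mod_cast hTcard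
  have hTle : T.card ≤ q ^ s := by
    have : T ⊆ Finset.range (q ^ s) := fun t ht => Finset.mem_range.2 (hTlt t ht)
    simpa using Finset.card_le_card this
  have hTleR : (T.card : ℝ) ≤ (q : ℝ) ^ s := by exact_mod_cast hTle
  have hγ1 : γ ≤ 1 := by
    rw [hγ, div_le_one hlogQ]
    exact Real.log_le_log (by linarith) hTleR
  have hTpow : ((q : ℝ) ^ s) ^ γ = (T.card : ℝ) := by
    have := Real.rpow_logb hQpos hQ1.ne' (show (0 : ℝ) < (T.card : ℝ) by linarith)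
    simpa [Real.logb, hγ] using this
  refine ⟨1 / (2 * C), by positivity, fun N hN => ?_⟩
  have hN1 : (1 : ℝ) ≤ (N : ℝ) := by exact_mod_cast hN
  have hNpos : (0 : ℝ) < (N : ℝ) := by linarith
  set Z : ℝ := (N : ℝ) ^ (1 / (k : ℝ)) with hZ
  have hZ1 : 1 ≤ Z := Real.one_le_rpow hN1 (by positivity)
  have hZ0 : 0 ≤ Z := by linarith
  have hZk : Z ^ k = (N : ℝ) := by
    rw [hZ, ← Real.rpow_natCast, ← Real.rpow_mul hNpos.le, one_div_mul_cancel hkR.ne', Real.rpow_one]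
  have hZs : Z ^ s = (N : ℝ) ^ (1 / (e : ℝ)) := by
    rw [hZ, ← Real.rpow_natCast, ← Real.rpow_mul hNpos.le]
    congr 1
    rw [hk]
    push_cast
    have hsR : (s : ℝ) ≠ 0 := by
      have : s ≠ 0 := by omega
      exact_mod_cast this
    field_simp
  set Xn : ℕ := ⌊Z⌋₊ with hXn
  have hXn1 : 1 ≤ Xn := by
    rw [hXn]; exact Nat.le_floor (by simpa using hZ1)
  have hXnle : (Xn : ℝ) ≤ Z := Nat.floor_le hZ0
  have hXnlt : Z < (Xn : ℝ) + 1 := Nat.lt_floor_add_one Z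
  set j : ℕ := Nat.log q Xn with hj
  have hqj : q ^ j ≤ Xn := Nat.pow_log_le_self q (by omega)
  have hqj1 : Xn < q ^ (j + 1) := Nat.lt_pow_succ_log_self (by omega) Xn
  set X : ℕ := 2 * Xn + 1 with hX
  have hXprop : ∀ n : ℕ, (n : ℤ) ^ (g.natDegree * s) ≤ 2 ^ s * (N : ℤ) → n ≤ X := by
    intro n hn
    have h1 : (n : ℝ) ^ k ≤ 2 ^ s * (N : ℝ) := by exact_mod_cast hn
    have h2 : (2 : ℝ) ^ s ≤ 2 ^ k := by
      apply pow_le_pow_right₀ (by norm_num)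
      rw [hk]
      exact Nat.le_mul_of_pos_left s (by omega)
    have h3 : (n : ℝ) ^ k ≤ (2 * Z) ^ k := by
      rw [mul_pow, hZk]
      exact h1.trans (mul_le_mul_of_nonneg_right h2 hNpos.le)
    have h4 : (n : ℝ) ≤ 2 * Z :=
      (pow_le_pow_iff_left₀ (by positivity) (by positivity) hkpos.ne').1 h3
    have h5 : (n : ℝ) < 2 * (Xn : ℝ) + 2 := by linarith
    have h6 : n < 2 * Xn + 2 := by exact_mod_cast h5
    omega
  have hcomb := hybrid_comb hs hq hTlt hT hsep hn0 (N := N) (j := j) (X := X) hXprop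
  have hdiv : X / q ^ j + 1 ≤ 2 * q := by
    have : X / q ^ j < 2 * q := by
      apply Nat.div_lt_of_lt_mul
      have : q ^ (j + 1) = q ^ j * q := pow_succ q j
      nlinarith
    omega
  have hcomb2 : T.card ^ j * (N / (q ^ s) ^ j) ≤ r (g ^ s) N * C := by
    refine hcomb.trans (Nat.mul_le_mul_left _ ?_)
    rw [hC]
    have : q * (X / q ^ j + 1) ≤ q * (2 * q) := Nat.mul_le_mul_left _ hdiv
    nlinarith
  -- real estimates
  set Y : ℝ := (((q ^ s) ^ j : ℕ) : ℝ) with hY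
  have hYeq : Y = ((q : ℝ) ^ j) ^ s := by
    rw [hY]; push_cast; rw [← pow_mul, ← pow_mul, mul_comm]
  have hqjR : (q : ℝ) ^ j ≤ Z := by
    have : ((q ^ j : ℕ) : ℝ) ≤ (Xn : ℝ) := by exact_mod_cast hqj
    push_cast at this
    linarith
  have hYle : Y ≤ Z ^ s := by
    rw [hYeq]
    exact pow_le_pow_left₀ (by positivity) hqjR s
  have hY1 : 1 ≤ Y := by
    rw [hY]
    have : 1 ≤ (q ^ s) ^ j := Nat.one_le_pow _ _ (pow_pos (by omega) s)
    exact_mod_cast this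
  have hYpos : 0 < Y := by linarith
  have hYN : Y ≤ (N : ℝ) := by
    refine hYle.trans ?_
    rw [← hZk]
    apply pow_le_pow_right₀ hZ1
    rw [hk]
    exact Nat.le_mul_of_pos_left s (by omega)
  have hYNnat : (q ^ s) ^ j ≤ N := by
    have h : (((q ^ s) ^ j : ℕ) : ℝ) ≤ (N : ℝ) := hYN
    exact_mod_cast h
  have hU : (N : ℝ) ≤ 2 * Y * ((N / (q ^ s) ^ j : ℕ) : ℝ) := by
    have hpos : 0 < (q ^ s) ^ j := pow_pos (pow_pos (by omega) s) j
    have h1 : N < (q ^ s) ^ j * (N / (q ^ s) ^ j + 1) := Nat.lt_mul_div_succ N hpos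
    have h2 : 1 ≤ N / (q ^ s) ^ j := (Nat.one_le_div_iff hpos).2 hYNnat
    have h3 : N ≤ 2 * (q ^ s) ^ j * (N / (q ^ s) ^ j) := by nlinarith
    rw [hY]
    exact_mod_cast h3
  have hTj : ((T.card : ℝ)) ^ j = Y ^ γ := by
    rw [← hTpow, hY]
    push_cast
    rw [← Real.rpow_natCast (((q : ℝ) ^ s) ^ γ) j, ← Real.rpow_mul hQpos.le,
      ← Real.rpow_natCast ((q : ℝ) ^ s) j, ← Real.rpow_mul hQpos.le, mul_comm]
  have hYγ : (N : ℝ) ^ ((γ - 1) / (e : ℝ)) ≤ Y ^ (γ - 1) := by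
    have h1 : ((N : ℝ) ^ (1 / (e : ℝ))) ^ (γ - 1) ≤ Y ^ (γ - 1) :=
      Real.rpow_le_rpow_of_nonpos hYpos (by rw [← hZs]; exact hYle) (by linarith)
    rw [← Real.rpow_mul hNpos.le] at h1
    have : 1 / (e : ℝ) * (γ - 1) = (γ - 1) / (e : ℝ) := by ring
    rw [this] at h1
    exact h1
  have hcombR : ((T.card : ℝ)) ^ j * ((N / (q ^ s) ^ j : ℕ) : ℝ) ≤ (r (g ^ s) N : ℝ) * (C : ℝ) := by
    exact_mod_cast hcomb2
  have hexp : (N : ℝ) ^ (1 - (1 - γ) / (e : ℝ)) = (N : ℝ) * (N : ℝ) ^ ((γ - 1) / (e : ℝ)) := by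
    have : 1 - (1 - γ) / (e : ℝ) = 1 + (γ - 1) / (e : ℝ) := by ring
    rw [this, Real.rpow_add hNpos, Real.rpow_one]
  rw [hexp]
  have hYsplit : Y ^ γ = Y * Y ^ (γ - 1) := by
    have : γ = 1 + (γ - 1) := by ring
    conv_lhs => rw [this]
    rw [Real.rpow_add hYpos, Real.rpow_one]
  have hW : 0 ≤ Y ^ (γ - 1) := Real.rpow_nonneg hYpos.le _
  have hmain : (N : ℝ) * (N : ℝ) ^ ((γ - 1) / (e : ℝ)) ≤ 2 * ((r (g ^ s) N : ℝ) * (C : ℝ)) := by
    calc (N : ℝ) * (N : ℝ) ^ ((γ - 1) / (e : ℝ)) ≤ (N : ℝ) * Y ^ (γ - 1) :=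
          mul_le_mul_of_nonneg_left hYγ hNpos.le
      _ ≤ (2 * Y * ((N / (q ^ s) ^ j : ℕ) : ℝ)) * Y ^ (γ - 1) :=
          mul_le_mul_of_nonneg_right hU hW
      _ = 2 * (Y ^ γ * ((N / (q ^ s) ^ j : ℕ) : ℝ)) := by rw [hYsplit]; ring
      _ ≤ 2 * ((r (g ^ s) N : ℝ) * (C : ℝ)) := by
          rw [← hTj]
          linarith
  rw [div_mul_eq_mul_div, one_mul, div_le_iff₀ (by positivity)]
  linarith

end Vale.Agent.Lib.P042
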