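import Vale.Agent.Lib.P042.Digits

namespace Vale.Agent.Lib.P042

open Polynomial

/-- `g` has no repeated root modulo any prime divisor of `q`. -/
def SeparableMod (g : ℤ[X]) (q : ℕ) : Prop :=
  ∀ p : ℕ, p.Prime → p ∣ q → ∀ x : ℤ, ¬ ((p : ℤ) ∣ g.eval x ∧ (p : ℤ) ∣ (derivative g).eval x)

lemma hensel_unique {g : ℤ[X]} {q : ℕ} (hsep : SeparableMod g q) {j : ℕ} (hj : 1 ≤ j) {x y : ℤ}
    (hxy : (q : ℤ) ∣ y - x) (hx : (q : ℤ) ^ j ∣ g.eval x) (hy : (q : ℤ) ^ j ∣ g.eval y) :
    (q : ℤ) ^ j ∣ y - x := by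
  obtain ⟨k, hk⟩ := Polynomial.binomExpansion g x (y - x)
  set δ := y - x with hδ
  have hxy' : x + δ = y := by rw [hδ]; ring
  rw [hxy'] at hk
  set w := (derivative g).eval x + k * δ with hw
  have hprod : (q : ℤ) ^ j ∣ δ * w := by
    have : δ * w = g.eval y - g.eval x := by rw [hk, hw]; ring
    rw [this]
    exact dvd_sub hy hx
  have hcop : IsCoprime ((q : ℤ) ^ j) w := by
    apply IsCoprime.pow_left
    rw [Int.isCoprime_iff_gcd_eq_one]
    by_contra hne
    obtain ⟨p, hp, hpd⟩ := Nat.exists_prime_and_dvd hne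
    have h1 : (p : ℤ) ∣ (q : ℤ) := (Int.natCast_dvd_natCast.2 hpd).trans (Int.gcd_dvd_left _ _)
    have h2 : (p : ℤ) ∣ w := (Int.natCast_dvd_natCast.2 hpd).trans (Int.gcd_dvd_right _ _)
    have hpq : p ∣ q := Int.natCast_dvd_natCast.1 h1
    have h3 : (p : ℤ) ∣ g.eval x := (h1.trans (dvd_pow_self _ (by omega))).trans hx
    have h4 : (p : ℤ) ∣ δ := h1.trans hxy
    have h5 : (p : ℤ) ∣ (derivative g).eval x := by
      have : (derivative g).eval x = w - k * δ := by rw [hw]; ring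
      rw [this]
      exact dvd_sub h2 (Dvd.dvd.mul_left h4 k)
    exact hsep p hp hpq x ⟨h3, h5⟩
  exact hcop.dvd_of_dvd_mul_right hprod

lemma card_roots_le {g : ℤ[X]} {q : ℕ} (hq : 0 < q) (hsep : SeparableMod g q) (j X : ℕ) :
    ((Finset.range (X + 1)).filter (fun n : ℕ => (q : ℤ) ^ j ∣ g.eval (n : ℤ))).card
      ≤ q * (X / q ^ j + 1) := by
  classical
  have hqj : 0 < q ^ j := pow_pos hq j
  have : ((Finset.range (X + 1)).filter (fun n : ℕ => (q : ℤ) ^ j ∣ g.eval (n : ℤ))).card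
      ≤ (Finset.range q ×ˢ Finset.range (X / q ^ j + 1)).card := by
    apply Finset.card_le_card_of_injOn (fun n => (n % q, n / q ^ j))
    · intro n hn
      have hn' := Finset.mem_filter.1 (Finset.mem_coe.1 hn)
      have hnX : n ≤ X := by
        have := Finset.mem_range.1 hn'.1
        omega
      simp only [Finset.coe_product, Set.mem_prod, Finset.mem_coe, Finset.mem_range]
      exact ⟨Nat.mod_lt _ hq, Nat.lt_succ_of_le (Nat.div_le_div_right hnX)⟩
    · intro n hn n' hn' heq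
      have hn1 := (Finset.mem_filter.1 (Finset.mem_coe.1 hn)).2
      have hn2 := (Finset.mem_filter.1 (Finset.mem_coe.1 hn')).2
      have e1 : n % q = n' % q := (Prod.ext_iff.1 heq).1
      have e2 : n / q ^ j = n' / q ^ j := (Prod.ext_iff.1 heq).2
      rcases Nat.eq_zero_or_pos j with rfl | hj
      · simpa using e2
      have hdvd : (q : ℤ) ∣ (n' : ℤ) - (n : ℤ) := by
        have : (n : ℤ) % (q : ℤ) = (n' : ℤ) % (q : ℤ) := by exact_mod_cast e1
        exact Int.ModEq.dvd this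
      have h3 := hensel_unique hsep hj hdvd hn1 hn2
      have h4 : n % q ^ j = n' % q ^ j := by
        have : (n : ℤ) ≡ (n' : ℤ) [ZMOD ((q ^ j : ℕ) : ℤ)] := by
          rw [Int.modEq_iff_dvd]
          exact_mod_cast h3
        exact Int.natCast_modEq_iff.1 this
      rw [← Nat.div_add_mod n (q ^ j), ← Nat.div_add_mod n' (q ^ j), e2, h4]
  simpa using this

end Vale.Agent.Lib.P042
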