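import Vale.Agent.Lib.P042.HybridReal

namespace Vale.Agent.Lib.P042

open Polynomial

/-- Ruzsa form of the hybrid bound: squarefree modulus `m`, residue set `R` without `s`-th power
differences modulo `m`. -/
theorem hybrid_ruzsa {s m : ℕ} (hs : 1 ≤ s) (hm : 2 ≤ m) (hsq : Squarefree m) {R : Finset ℕ}
    (hRne : R.Nonempty) (hRlt : ∀ t ∈ R, t < m)
    (hR : ∀ t ∈ R, ∀ t' ∈ R, ∀ z : ℤ, (m : ℤ) ∣ ((t : ℤ) - (t' : ℤ) - z ^ s) → t = t')
    {g : ℤ[X]} (hg : 1 ≤ g.natDegree) (hlead : 0 < g.leadingCoeff) (hsep : SeparableMod g m) :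
    ∃ c : ℝ, 0 < c ∧ ∀ N : ℕ, 1 ≤ N →
      c * (N : ℝ) ^ (1 - (1 - Real.log (R.card : ℝ) / Real.log (m : ℝ)) / ((s : ℝ) * (g.natDegree : ℝ)))
        ≤ (r (g ^ s) N : ℝ) := by
  classical
  have hmpos : 0 < m := by omega
  set T : Finset ℕ := Finset.image₂ (fun t a => t + m * a) R (Finset.range (m ^ (s - 1))) with hTdef
  have hms : m ^ s = m * m ^ (s - 1) := by
    conv_lhs => rw [show s = (s - 1) + 1 by omega]
    rw [pow_succ, mul_comm]
  have hTcard : T.card = R.card * m ^ (s - 1) := by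
    rw [hTdef, Finset.card_image₂_iff.2, Finset.card_range]
    rintro ⟨t, a⟩ h1 ⟨t', a'⟩ h2 heq
    have h1 : t ∈ R ∧ a ∈ Finset.range (m ^ (s - 1)) := by simpa using h1
    have h2 : t' ∈ R ∧ a' ∈ Finset.range (m ^ (s - 1)) := by simpa using h2
    have heq : t + m * a = t' + m * a' := heq
    have ht := hRlt t h1.1
    have ht' := hRlt t' h2.1
    have e1 : (t + m * a) % m = t := by
      rw [Nat.add_mul_mod_self_left, Nat.mod_eq_of_lt ht]
    have e2 : (t' + m * a') % m = t' := by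
      rw [Nat.add_mul_mod_self_left, Nat.mod_eq_of_lt ht']
    have htt : t = t' := by rw [← e1, ← e2, heq]
    subst htt
    have : m * a = m * a' := by omega
    have haa : a = a' := Nat.eq_of_mul_eq_mul_left hmpos this
    rw [haa]
  have hTne : T.Nonempty := by
    rw [← Finset.card_pos, hTcard]
    exact Nat.mul_pos (Finset.card_pos.2 hRne) (pow_pos hmpos _)
  have hTlt : ∀ x ∈ T, x < m ^ s := by
    intro x hx
    rw [hTdef, Finset.mem_image₂] at hx
    obtain ⟨t, ht, a, ha, rfl⟩ := hx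
    have h1 := hRlt t ht
    have h2 : a + 1 ≤ m ^ (s - 1) := Finset.mem_range.1 ha
    rw [hms]
    calc t + m * a < m + m * a := by omega
      _ = m * (a + 1) := by ring
      _ ≤ m * m ^ (s - 1) := Nat.mul_le_mul_left _ h2
  have hT : ∀ x ∈ T, ∀ x' ∈ T, ∀ z : ℤ, ((m : ℤ) ^ s) ∣ ((x : ℤ) - (x' : ℤ) - z ^ s) → x = x' := by
    intro x hx x' hx' z hz
    have hxlt := hTlt x hx
    have hxlt' := hTlt x' hx'
    rw [hTdef, Finset.mem_image₂] at hx hx'
    obtain ⟨t, ht, a, _, rfl⟩ := hx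
    obtain ⟨t', ht', a', _, rfl⟩ := hx'
    have hmdvd : (m : ℤ) ∣ (m : ℤ) ^ s := dvd_pow_self _ (by omega)
    have h1 : (m : ℤ) ∣ ((t : ℤ) - (t' : ℤ) - z ^ s) := by
      have h2 := hmdvd.trans hz
      have h3 : ((t : ℤ) - (t' : ℤ) - z ^ s)
          = (((t + m * a : ℕ) : ℤ) - ((t' + m * a' : ℕ) : ℤ) - z ^ s) - (m : ℤ) * ((a : ℤ) - a') := by
        push_cast; ring
      rw [h3]
      exact dvd_sub h2 (dvd_mul_right _ _)
    have htt : t = t' := hR t ht t' ht' z h1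
    subst htt
    have h4 : (m : ℤ) ∣ z ^ s := by
      have : z ^ s = -(((t : ℤ) - (t : ℤ) - z ^ s)) := by ring
      rw [this]
      exact (dvd_neg).2 h1
    have hsqZ : Squarefree (m : ℤ) := Int.squarefree_natCast.2 hsq
    have h5 : (m : ℤ) ∣ z := (hsqZ.dvd_pow_iff_dvd (by omega)).1 h4
    have h6 : (m : ℤ) ^ s ∣ z ^ s := pow_dvd_pow_of_dvd h5 s
    have h7 : (m : ℤ) ^ s ∣ ((t + m * a : ℕ) : ℤ) - ((t + m * a' : ℕ) : ℤ) := by
      have := dvd_add hz h6
      simpa using this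
    have h8 : ((t + m * a' : ℕ) : ℤ) ≡ ((t + m * a : ℕ) : ℤ) [ZMOD ((m ^ s : ℕ) : ℤ)] := by
      rw [Int.modEq_iff_dvd]
      exact_mod_cast h7
    have h9 : (t + m * a') % m ^ s = (t + m * a) % m ^ s := Int.natCast_modEq_iff.1 h8
    rw [Nat.mod_eq_of_lt hxlt, Nat.mod_eq_of_lt hxlt'] at h9
    exact h9.symm
  obtain ⟨c, hc, hmain⟩ := hybrid_core hs hm hTne hTlt hT hg hlead hsep
  refine ⟨c, hc, fun N hN => ?_⟩
  have := hmain N hN
  have hmR : (1 : ℝ) < (m : ℝ) := by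
    have : 1 < m := by omega
    exact_mod_cast this
  have hlogm : 0 < Real.log (m : ℝ) := Real.log_pos hmR
  have hRcard : (0 : ℝ) < (R.card : ℝ) := by
    have := Finset.card_pos.2 hRne
    exact_mod_cast this
  have hsR : (0 : ℝ) < (s : ℝ) := by
    have : 0 < s := by omega
    exact_mod_cast this
  have heR : (0 : ℝ) < (g.natDegree : ℝ) := by
    have : 0 < g.natDegree := by omega
    exact_mod_cast this
  have hexp : (1 - Real.log (T.card : ℝ) / Real.log ((m : ℝ) ^ s)) / (g.natDegree : ℝ)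
      = (1 - Real.log (R.card : ℝ) / Real.log (m : ℝ)) / ((s : ℝ) * (g.natDegree : ℝ)) := by
    rw [hTcard]
    push_cast
    rw [Real.log_mul hRcard.ne' (by positivity), Real.log_pow, Real.log_pow]
    have hs1 : ((s - 1 : ℕ) : ℝ) = (s : ℝ) - 1 := by
      rw [Nat.cast_sub hs]; simp
    rw [hs1]
    field_simp
    ring
  rw [hexp] at this
  exact this

end Vale.Agent.Lib.P042
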