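import Vale.Agent.Lib.P042.RuzsaForm

namespace Vale.Agent.Lib.P042

open Polynomial

/-- integral Bezout identity for a polynomial that is separable over `ℚ`. -/
lemma exists_bezout {g : ℤ[X]} (hsep : (g.map (Int.castRingHom ℚ)).Separable) :
    ∃ (u v : ℤ[X]) (c : ℤ), c ≠ 0 ∧ u * g + v * derivative g = C c := by
  obtain ⟨a, b, hab⟩ := hsep
  obtain ⟨d1, hd1⟩ := IsLocalization.integerNormalization_map_to_map (nonZeroDivisors ℤ) a
  obtain ⟨d2, hd2⟩ := IsLocalization.integerNormalization_map_to_map (nonZeroDivisors ℤ) b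
  set a' := IsLocalization.integerNormalization (nonZeroDivisors ℤ) a
  set b' := IsLocalization.integerNormalization (nonZeroDivisors ℤ) b
  have h1 : (d1 : ℤ) ≠ 0 := nonZeroDivisors.coe_ne_zero d1
  have h2 : (d2 : ℤ) ≠ 0 := nonZeroDivisors.coe_ne_zero d2
  refine ⟨C (d2 : ℤ) * a', C (d1 : ℤ) * b', (d1 : ℤ) * (d2 : ℤ), mul_ne_zero h1 h2, ?_⟩
  apply Polynomial.map_injective (Int.castRingHom ℚ) Int.cast_injective
  have halg : algebraMap ℤ ℚ = Int.castRingHom ℚ := rfl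
  rw [halg] at hd1 hd2
  simp only [Polynomial.map_add, Polynomial.map_mul, Polynomial.map_C, hd1, hd2]
  rw [← derivative_map]
  have e1 : ((d1 : ℤ) • a : ℚ[X]) = C ((d1 : ℤ) : ℚ) * a := by
    rw [zsmul_eq_mul]; simp
  have e2 : ((d2 : ℤ) • b : ℚ[X]) = C ((d2 : ℤ) : ℚ) * b := by
    rw [zsmul_eq_mul]; simp
  rw [e1, e2]
  simp only [eq_intCast, Int.cast_mul, C_mul]
  have : C ((d2 : ℤ) : ℚ) * (C ((d1 : ℤ) : ℚ) * a) * map (Int.castRingHom ℚ) g
      + C ((d1 : ℤ) : ℚ) * (C ((d2 : ℤ) : ℚ) * b) * derivative (map (Int.castRingHom ℚ) g)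
      = C ((d1 : ℤ) : ℚ) * C ((d2 : ℤ) : ℚ)
        * (a * map (Int.castRingHom ℚ) g + b * derivative (map (Int.castRingHom ℚ) g)) := by ring
  rw [this, hab, mul_one]

lemma separableMod_of_bezout {g u v : ℤ[X]} {c : ℤ} (h : u * g + v * derivative g = C c) {p : ℕ}
    (hp : p.Prime) (hpc : ¬ (p : ℤ) ∣ c) : SeparableMod g p := by
  intro p' hp' hdvd x hx
  have hpp : p' = p := (Nat.prime_dvd_prime_iff_eq hp' hp).1 hdvd
  subst hpp
  apply hpc
  have := congrArg (Polynomial.eval x) h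
  simp only [eval_add, eval_mul, eval_C] at this
  rw [← this]
  exact dvd_add (Dvd.dvd.mul_left hx.1 _) (Dvd.dvd.mul_left hx.2 _)

/-- a two element set without square differences modulo a prime `p ≡ 1 (mod 4)`. -/
lemma exists_pair {p : ℕ} (hp : p.Prime) (hp4 : p % 4 = 1) :
    ∃ ν : ℕ, 0 < ν ∧ ν < p ∧ ∀ t ∈ ({0, ν} : Finset ℕ), ∀ t' ∈ ({0, ν} : Finset ℕ), ∀ z : ℤ,
      (p : ℤ) ∣ ((t : ℤ) - (t' : ℤ) - z ^ 2) → t = t' := by
  haveI : Fact p.Prime := ⟨hp⟩
  have hchar : ringChar (ZMod p) ≠ 2 := by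
    rw [ZMod.ringChar_zmod_n]
    intro h2
    rw [h2] at hp4
    norm_num at hp4
  obtain ⟨a, ha⟩ := FiniteField.exists_nonsquare hchar
  have hneg : IsSquare (-1 : ZMod p) := by
    rw [ZMod.exists_sq_eq_neg_one_iff]
    omega
  obtain ⟨i, hi⟩ := hneg
  have hna : ¬ IsSquare (-a) := by
    rintro ⟨w, hw⟩
    apply ha
    refine ⟨i * w, ?_⟩
    have : a = (-1) * (-a) := by ring
    rw [this, hi, hw]
    ring
  have ha0 : a ≠ 0 := by
    rintro rfl
    exact ha ⟨0, by simp⟩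
  refine ⟨a.val, ?_, ZMod.val_lt a, ?_⟩
  · rw [Nat.pos_iff_ne_zero]
    intro h0
    exact ha0 ((ZMod.val_eq_zero a).1 h0)
  intro t ht t' ht' z hz
  have hz' := (ZMod.intCast_zmod_eq_zero_iff_dvd ((t : ℤ) - (t' : ℤ) - z ^ 2) p).2 hz
  push_cast at hz'
  simp only [Finset.mem_insert, Finset.mem_singleton] at ht ht'
  rcases ht with rfl | rfl <;> rcases ht' with rfl | rfl
  · rfl
  · exfalso
    apply hna
    refine ⟨(z : ZMod p), ?_⟩
    simp only [Nat.cast_zero, ZMod.natCast_val, ZMod.cast_id', id_eq, zero_sub] at hz'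
    have : -a = (z : ZMod p) ^ 2 := by
      have h := sub_eq_zero.1 hz'
      exact h
    rw [this]; ring
  · exfalso
    apply ha
    refine ⟨(z : ZMod p), ?_⟩
    simp only [Nat.cast_zero, ZMod.natCast_val, ZMod.cast_id', id_eq, sub_zero] at hz'
    have : a = (z : ZMod p) ^ 2 := sub_eq_zero.1 hz'
    rw [this]; ring
  · rfl

end Vale.Agent.Lib.P042
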